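import Vale.Agent.P233.Bd3.B10

open MeasureTheory

universe u

namespace Vale.Agent.Results.P233.AlexToSec

open Vale.Agent.P233.T

/-- (A) implies (B). Let `(M,d)` be a complete separable Alexandrov space with curvature `≥ κ`, and
let `m` be a measure with full support such that `(M,d,m)` is `RCD(K,N)`; for `n`-dimensional
spaces this is known for the Hausdorff measure `m = ℋⁿ`, with `K = (n - 1) κ` and `N = n`. Then
`(M,d,m)` has distributional sectional curvature `≥ κ`. -/
theorem result {M : Type u} [MetricSpace M] [CompleteSpace M] [SecondCountableTopology M]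
    [MeasurableSpace M] [BorelSpace M] (m : Measure M) [m.IsOpenPosMeasure] (κ K N : ℝ)
    (hN : 0 < N) (hA : IsAlexandrov M κ) (h : IsRCD m K N) : DistSecGE (sob m) κ :=
  Vale.Agent.P233.ab_T m hN hA h

end Vale.Agent.Results.P233.AlexToSec
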